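import Vale.Agent.P235.K5.H12.Int
import Vale.Agent.P235.H56.MinTrans

/-!
P235, line K5, [W-FIN] (helper437): decompositions of a vertex set of an ambient graph into bags
glued along cliques with at most three vertices; concatenation; splitting.
-/

set_option autoImplicit false
set_option linter.all false

namespace Vale.Agent.P235.K5.H437

open SimpleGraph Vale.Agent.P235.H134 Vale.Agent.P235.H56

variable {V : Type}

/-- the complete graph on the vertices of `K` -/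
def cl (K : Set V) : SimpleGraph V where
  Adj u v := u ≠ v ∧ u ∈ K ∧ v ∈ K
  symm := ⟨fun _ _ h => ⟨h.1.symm, h.2.2, h.2.1⟩⟩
  loopless := ⟨fun _ h => h.1 rfl⟩

/-- the edges of `H` inside `X` -/
def cutG (H : SimpleGraph V) (X : Set V) : SimpleGraph V where
  Adj u v := H.Adj u v ∧ u ∈ X ∧ v ∈ X
  symm := ⟨fun _ _ h => ⟨h.1.symm, h.2.2, h.2.1⟩⟩
  loopless := ⟨fun _ h => h.1.ne rfl⟩

/-- `K` is a clique of `G` -/
def Clq (G : SimpleGraph V) (K : Set V) : Prop := ∀ u ∈ K, ∀ v ∈ K, u ≠ v → G.Adj u v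

/-- the part `H[X]` is glued from the pieces `H[B t]`, `t < m`, the first one contains `R` -/
structure GlX (A : ∀ W : Type, SimpleGraph W → Prop) (H : SimpleGraph V) (X : Set V) (m : ℕ)
    (B : ℕ → Set V) (R : Set V) : Prop where
  pos : 0 < m
  root : R ⊆ B 0
  sub : ∀ t < m, B t ⊆ X
  cover : ∀ v ∈ X, ∃ t, t < m ∧ v ∈ B t
  card : ∀ t < m, (Adh B t).ncard ≤ 3
  clique : ∀ t < m, ∀ u ∈ Adh B t, ∀ v ∈ Adh B t, u ≠ v → H.Adj u v
  sep : ∀ t < m, ∀ u v, u ∈ B t → u ∉ Bef B t → v ∈ Bef B t → v ∉ B t → ¬ H.Adj u v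
  atom : ∀ t < m, A (B t) (H.induce (B t))

variable {A : ∀ W : Type, SimpleGraph W → Prop}

theorem GlX.bef {H : SimpleGraph V} {X : Set V} {m : ℕ} {B : ℕ → Set V} {R : Set V}
    (h : GlX A H X m B R) : Bef B m = X := by
  ext v
  constructor
  · rintro ⟨s, hs, hv⟩
    exact h.sub s hs hv
  · intro hv
    obtain ⟨t, ht, hv⟩ := h.cover v hv
    exact ⟨t, ht, hv⟩

theorem GlX.cat {H1 H2 : SimpleGraph V} {X1 X2 : Set V} {m1 m2 : ℕ} {B1 B2 : ℕ → Set V}
    {R : Set V} (h1 : GlX A H1 X1 m1 B1 R) (h2 : GlX A H2 X2 m2 B2 (X1 ∩ X2))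
    (hK : (X1 ∩ X2).ncard ≤ 3) (c1 : Clq H1 (X1 ∩ X2)) (c2 : Clq H2 (X1 ∩ X2)) :
    GlX A (cutG H1 X1 ⊔ cutG H2 X2) (X1 ∪ X2) (m1 + m2)
      (fun t => if t < m1 then B1 t else B2 (t - m1)) R := by
  set B : ℕ → Set V := fun t => if t < m1 then B1 t else B2 (t - m1) with hB
  have hB1 : ∀ t, t < m1 → B t = B1 t := fun t ht => if_pos ht
  have hB2 : ∀ s, B (m1 + s) = B2 s := by
    intro s
    simp only [hB]
    rw [if_neg (by omega)]
    congr 1
    omega
  have bef1 : ∀ t, t ≤ m1 → Bef B t = Bef B1 t := by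
    intro t ht
    ext v
    constructor
    · rintro ⟨s, hs, hv⟩
      rw [hB1 s (by omega)] at hv
      exact ⟨s, hs, hv⟩
    · rintro ⟨s, hs, hv⟩
      refine ⟨s, hs, ?_⟩
      rw [hB1 s (by omega)]
      exact hv
  have bef2 : ∀ s, Bef B (m1 + s) = X1 ∪ Bef B2 s := by
    intro s
    ext v
    constructor
    · rintro ⟨r, hr, hv⟩
      by_cases hrm : r < m1
      · rw [hB1 r hrm] at hv
        exact Or.inl (h1.sub r hrm hv)
      · obtain ⟨q, rfl⟩ := Nat.exists_eq_add_of_le (not_lt.1 hrm)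
        rw [hB2] at hv
        exact Or.inr ⟨q, by omega, hv⟩
    · rintro (hv | ⟨q, hq, hv⟩)
      · obtain ⟨t, ht, hv⟩ := h1.cover v hv
        refine ⟨t, by omega, ?_⟩
        rw [hB1 t ht]
        exact hv
      · refine ⟨m1 + q, by omega, ?_⟩
        rw [hB2]
        exact hv
  have adh1 : ∀ t, t < m1 → Adh B t = Adh B1 t := by
    intro t ht
    unfold Adh
    rw [hB1 t ht, bef1 t ht.le]
  have adh0 : Adh B (m1 + 0) = X1 ∩ X2 := by
    ext v
    unfold Adh
    rw [hB2, bef2]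
    constructor
    · rintro ⟨hv, hv' | ⟨q, hq, _⟩⟩
      · exact ⟨hv', h2.sub 0 h2.pos hv⟩
      · omega
    · intro hv
      exact ⟨h2.root hv, Or.inl hv.1⟩
  have adh2 : ∀ s, 0 < s → s < m2 → Adh B (m1 + s) = Adh B2 s := by
    intro s hs hsm
    ext v
    unfold Adh
    rw [hB2, bef2]
    constructor
    · rintro ⟨hv, hv' | hv'⟩
      · exact ⟨hv, ⟨0, hs, h2.root ⟨hv', h2.sub s hsm hv⟩⟩⟩
      · exact ⟨hv, hv'⟩
    · rintro ⟨hv, hv'⟩
      exact ⟨hv, Or.inr hv'⟩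
  have adj1 : ∀ u v, u ∈ X1 → v ∈ X1 → ((cutG H1 X1 ⊔ cutG H2 X2).Adj u v ↔ H1.Adj u v) := by
    intro u v hu hv
    constructor
    · rintro (h | h)
      · exact h.1
      · exact c1 u ⟨hu, h.2.1⟩ v ⟨hv, h.2.2⟩ h.1.ne
    · intro h
      exact Or.inl ⟨h, hu, hv⟩
  have adj2 : ∀ u v, u ∈ X2 → v ∈ X2 → ((cutG H1 X1 ⊔ cutG H2 X2).Adj u v ↔ H2.Adj u v) := by
    intro u v hu hv
    constructor
    · rintro (h | h)
      · exact c2 u ⟨h.2.1, hu⟩ v ⟨h.2.2, hv⟩ h.1.ne
      · exact h.1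
    · intro h
      exact Or.inr ⟨h, hu, hv⟩
  have split : ∀ t, t < m1 + m2 → t < m1 ∨ ∃ s, s < m2 ∧ t = m1 + s := by
    intro t ht
    by_cases h : t < m1
    · exact Or.inl h
    · exact Or.inr ⟨t - m1, by omega, by omega⟩
  refine ⟨by have := h1.pos; omega, ?_, ?_, ?_, ?_, ?_, ?_, ?_⟩
  · rw [hB1 0 h1.pos]; exact h1.root
  · intro t ht
    rcases split t ht with h | ⟨s, hs, rfl⟩
    · rw [hB1 t h]; exact (h1.sub t h).trans Set.subset_union_left
    · rw [hB2]; exact (h2.sub s hs).trans Set.subset_union_right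
  · rintro v (hv | hv)
    · obtain ⟨t, ht, hv⟩ := h1.cover v hv
      exact ⟨t, by omega, by rw [hB1 t ht]; exact hv⟩
    · obtain ⟨t, ht, hv⟩ := h2.cover v hv
      exact ⟨m1 + t, by omega, by rw [hB2]; exact hv⟩
  · intro t ht
    rcases split t ht with h | ⟨s, hs, rfl⟩
    · rw [adh1 t h]; exact h1.card t h
    · rcases Nat.eq_zero_or_pos s with rfl | h0
      · rw [adh0]; exact hK
      · rw [adh2 s h0 hs]; exact h2.card s hs
  · intro t ht
    rcases split t ht with h | ⟨s, hs, rfl⟩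
    · rw [adh1 t h]
      intro u hu v hv huv
      exact (adj1 u v (h1.sub t h hu.1) (h1.sub t h hv.1)).2 (h1.clique t h u hu v hv huv)
    · rcases Nat.eq_zero_or_pos s with rfl | h0
      · rw [adh0]
        intro u hu v hv huv
        exact (adj1 u v hu.1 hv.1).2 (c1 u hu v hv huv)
      · rw [adh2 s h0 hs]
        intro u hu v hv huv
        exact (adj2 u v (h2.sub s hs hu.1) (h2.sub s hs hv.1)).2 (h2.clique s hs u hu v hv huv)
  · intro t ht u v
    rcases split t ht with h | ⟨s, hs, rfl⟩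
    · rw [hB1 t h, bef1 t h.le]
      intro hu hu' hv hv' hadj
      have hvX : v ∈ X1 := by
        obtain ⟨r, hr, hvr⟩ := hv
        exact h1.sub r (by omega) hvr
      exact h1.sep t h u v hu hu' hv hv' ((adj1 u v (h1.sub t h hu) hvX).1 hadj)
    · rw [hB2, bef2]
      intro hu hu' hv hv' hadj
      have huX1 : u ∉ X1 := fun h => hu' (Or.inl h)
      have hvX2 : v ∈ X2 := by
        rcases hadj with h | h
        · exact absurd h.2.1 huX1
        · exact h.2.2
      have hH2 := (adj2 u v (h2.sub s hs hu) hvX2).1 hadj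
      have hvB : v ∈ Bef B2 s := by
        rcases hv with h | h
        · rcases Nat.eq_zero_or_pos s with rfl | h0
          · exact absurd (h2.root ⟨h, hvX2⟩) hv'
          · exact ⟨0, h0, h2.root ⟨h, hvX2⟩⟩
        · exact h
      exact h2.sep s hs u v hu (fun h => hu' (Or.inr h)) hvB hv' hH2
  · intro t ht
    rcases split t ht with h | ⟨s, hs, rfl⟩
    · rw [hB1 t h]
      have : (cutG H1 X1 ⊔ cutG H2 X2).induce (B1 t) = H1.induce (B1 t) := by
        ext u v
        exact adj1 u v (h1.sub t h u.2) (h1.sub t h v.2)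
      rw [this]
      exact h1.atom t h
    · rw [hB2]
      have : (cutG H1 X1 ⊔ cutG H2 X2).induce (B2 s) = H2.induce (B2 s) := by
        ext u v
        exact adj2 u v (h2.sub s hs u.2) (h2.sub s hs v.2)
      rw [this]
      exact h2.atom s hs

/-- `H` extends `G` on `X` and has a decomposition of `X` with root `R` -/
def Good (A : ∀ W : Type, SimpleGraph W → Prop) (G : SimpleGraph V) (X R : Set V) : Prop :=
  ∃ H : SimpleGraph V, (∀ u ∈ X, ∀ v ∈ X, G.Adj u v → H.Adj u v) ∧ ∃ m B, GlX A H X m B R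

/-- the two parts of a separation -/
theorem Good.cat {G : SimpleGraph V} {X1 X2 R : Set V} (hK : (X1 ∩ X2).ncard ≤ 3)
    (h1 : Good A (G ⊔ cl (X1 ∩ X2)) X1 R) (h2 : Good A (G ⊔ cl (X1 ∩ X2)) X2 (X1 ∩ X2))
    (hs : ∀ u v, u ∈ X1 → u ∉ X2 → v ∈ X2 → v ∉ X1 → ¬ G.Adj u v) :
    Good A G (X1 ∪ X2) R := by
  obtain ⟨H1, e1, m1, B1, g1⟩ := h1
  obtain ⟨H2, e2, m2, B2, g2⟩ := h2
  refine ⟨cutG H1 X1 ⊔ cutG H2 X2, ?_, _, _, GlX.cat g1 g2 hK ?_ ?_⟩
  · intro u hu v hv huv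
    by_cases h1 : u ∈ X1 ∧ v ∈ X1
    · exact Or.inl ⟨e1 u h1.1 v h1.2 (Or.inl huv), h1.1, h1.2⟩
    by_cases h2 : u ∈ X2 ∧ v ∈ X2
    · exact Or.inr ⟨e2 u h2.1 v h2.2 (Or.inl huv), h2.1, h2.2⟩
    exfalso
    rcases hu with hu | hu
    · have hv1 : v ∉ X1 := fun h => h1 ⟨hu, h⟩
      have hv2 : v ∈ X2 := hv.resolve_left hv1
      have hu2 : u ∉ X2 := fun h => h2 ⟨h, hv2⟩
      exact hs u v hu hu2 hv2 hv1 huv
    · have hv2 : v ∉ X2 := fun h => h2 ⟨hu, h⟩
      have hv1 : v ∈ X1 := hv.resolve_right hv2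
      have hu1 : u ∉ X1 := fun h => h1 ⟨h, hv1⟩
      exact hs v u hv1 hv2 hu hu1 huv.symm
  · intro u hu v hv huv
    exact e1 u hu.1 v hv.1 (Or.inr ⟨huv, hu, hv⟩)
  · intro u hu v hv huv
    exact e2 u hu.2 v hv.2 (Or.inr ⟨huv, hu, hv⟩)

/-- splitting off a set `C` whose outer neighbours in `X` lie in `K` -/
theorem Good.split {G : SimpleGraph V} {X C K R : Set V} (hC : C ⊆ X) (hKX : K ⊆ X)
    (hCK : ∀ v ∈ C, v ∉ K) (hK : K.ncard ≤ 3)
    (hcl : ∀ u ∈ C, ∀ v ∈ X, G.Adj u v → v ∈ C ∨ v ∈ K) (hRX : R ⊆ X) (hR : Clq G R)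
    (i1 : ∀ R', R' ⊆ C ∪ K → Clq (G ⊔ cl K) R' → Good A (G ⊔ cl K) (C ∪ K) R')
    (i2 : ∀ R', R' ⊆ X \ C → Clq (G ⊔ cl K) R' → Good A (G ⊔ cl K) (X \ C) R') :
    Good A G X R := by
  have hint : (C ∪ K) ∩ (X \ C) = K := by
    ext v
    constructor
    · rintro ⟨hv | hv, hv'⟩
      · exact absurd hv hv'.2
      · exact hv
    · intro hv
      exact ⟨Or.inr hv, hKX hv, fun h => hCK v h hv⟩
  have hint' : (X \ C) ∩ (C ∪ K) = K := by rw [Set.inter_comm]; exact hint
  have hun : (C ∪ K) ∪ (X \ C) = X := by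
    ext v
    constructor
    · rintro ((hv | hv) | hv)
      · exact hC hv
      · exact hKX hv
      · exact hv.1
    · intro hv
      by_cases h : v ∈ C
      · exact Or.inl (Or.inl h)
      · exact Or.inr ⟨hv, h⟩
  have hun' : (X \ C) ∪ (C ∪ K) = X := by rw [Set.union_comm]; exact hun
  have hKc : Clq (G ⊔ cl K) K := fun u hu v hv huv => Or.inr ⟨huv, hu, hv⟩
  have hRc : Clq (G ⊔ cl K) R := fun u hu v hv huv => Or.inl (hR u hu v hv huv)
  by_cases hRC : ∃ r ∈ R, r ∈ C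
  · obtain ⟨r, hr, hrC⟩ := hRC
    have hsub : R ⊆ C ∪ K := by
      intro v hv
      by_cases hvr : v = r
      · rw [hvr]; exact Or.inl hrC
      · exact hcl r hrC v (hRX hv) (hR r hr v hv (Ne.symm hvr))
    have := Good.cat (A := A) (G := G) (X1 := C ∪ K) (X2 := X \ C) (R := R)
      (by rw [hint]; exact hK) (by rw [hint]; exact i1 R hsub hRc)
      (by rw [hint]; exact i2 K (fun v hv => ⟨hKX hv, fun h => hCK v h hv⟩) hKc)
      (by
        intro u v hu hu' hv hv' huv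
        have huC : u ∈ C := by
          by_contra h
          exact hu' ⟨hun ▸ Or.inl hu, h⟩
        rcases hcl u huC v hv.1 huv with h | h
        · exact hv' (Or.inl h)
        · exact hv' (Or.inr h))
    rw [hun] at this
    exact this
  · have hsub : R ⊆ X \ C := fun v hv => ⟨hRX hv, fun h => hRC ⟨v, hv, h⟩⟩
    have := Good.cat (A := A) (G := G) (X1 := X \ C) (X2 := C ∪ K) (R := R)
      (by rw [hint']; exact hK) (by rw [hint']; exact i2 R hsub hRc)
      (by rw [hint']; exact i1 K (fun v hv => Or.inr hv) hKc)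
      (by
        intro u v hu hu' hv hv' huv
        have hvC : v ∈ C := by
          by_contra h
          exact hv' ⟨hun ▸ Or.inl hv, h⟩
        rcases hcl v hvC u hu.1 huv.symm with h | h
        · exact hu' (Or.inl h)
        · exact hu' (Or.inr h))
    rw [hun'] at this
    exact this

/-- one bag -/
theorem Good.one {G : SimpleGraph V} {X R : Set V} (hR : R ⊆ X) (h : A X (G.induce X)) :
    Good A G X R := by
  refine ⟨G, fun _ _ _ _ h => h, 1, fun _ => X, ?_⟩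
  have hb : ∀ t, t < 1 → Bef (fun _ : ℕ => X) t = ∅ := by
    intro t ht
    ext v
    constructor
    · rintro ⟨s, hs, _⟩
      omega
    · intro h
      exact h.elim
  have ha : ∀ t, t < 1 → Adh (fun _ : ℕ => X) t = ∅ := by
    intro t ht
    ext v
    constructor
    · rintro ⟨_, h⟩
      rw [hb t ht] at h
      exact h
    · intro h
      exact h.elim
  refine ⟨one_pos, hR, fun _ _ => le_rfl, fun v hv => ⟨0, one_pos, hv⟩, ?_, ?_, ?_, ?_⟩
  · intro t ht
    rw [ha t ht]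
    simp
  · intro t ht u hu
    rw [ha t ht] at hu
    exact hu.elim
  · intro t ht u v _ _ hv
    rw [hb t ht] at hv
    exact hv.elim
  · intro t ht
    exact h

end Vale.Agent.P235.K5.H437
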