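import Vale.Agent.P235.K5.H437.Dec

/-!
P235, line K5, [W-FIN] (helper437): every finite graph without a `K_5` minor is a spanning subgraph
of a clique sum (cliques with at most three vertices) of pieces without clique separator of at
most three vertices, each of them without `K_{3,3}` minor or with eight vertices and without
triangle.  Inputs: Theorem W (`WStmt`) and the face lemma (`FaceStmt`).
-/

set_option autoImplicit false
set_option linter.all false

namespace Vale.Agent.P235.K5.H437

open SimpleGraph Vale.Agent.P235.H134 Vale.Agent.P235.H56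
open Vale.Agent.P235.H341W (capG)

variable {V : Type}

/-- `K_5` -/
abbrev K5 : SimpleGraph (Fin 5) := ⊤

/-- (W) a 3-connected graph without `K_5` minor, with a `K_{3,3}` minor -/
def WStmt : Prop :=
  ∀ (V : Type) [Finite V] (G : SimpleGraph V), Conn3 G → ¬ IsMinor K5 G → IsMinor K33 G →
    (Nat.card V = 8 ∧ ∀ a b c, G.Adj a b → G.Adj b c → G.Adj a c → False) ∨
    ∃ (S : Finset V) (A : Fin 3 → Set V), S.card = 3 ∧ (∀ i, (A i).Nonempty) ∧
      (∀ i, ∀ v ∈ A i, v ∉ S) ∧ (∀ i j, i ≠ j → Disjoint (A i) (A j)) ∧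
      ∀ i, ∀ u ∈ A i, ∀ v, G.Adj u v → v ∉ A i → v ∈ S

/-- (FACE) -/
def FaceStmt : Prop :=
  ∀ (V : Type) [Finite V] (G : SimpleGraph V) (S : Set V), S.ncard ≤ 3 → Clq G S →
    (G.induce Sᶜ).Preconnected → ¬ IsMinor K5 G → ¬ IsMinor K33 G → ¬ IsMinor K33 (capG G S)

/-- the pieces without clique separator -/
def Atom (W : Type) (G : SimpleGraph W) : Prop :=
  Nonempty W ∧ (∀ K : Set W, K.ncard ≤ 3 → Clq G K → (G.induce Kᶜ).Preconnected) ∧
    ¬ IsMinor K5 G ∧
    (¬ IsMinor K33 G ∨ (Nat.card W = 8 ∧ ∀ a b c, G.Adj a b → G.Adj b c → G.Adj a c → False))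

/-- the component of `c` in `G[Y]` -/
def comp (G : SimpleGraph V) (Y : Set V) (c : V) : Set V :=
  {v | Relation.ReflTransGen (fun a b => G.Adj a b ∧ b ∈ Y) c v}

section comp

variable {G : SimpleGraph V} {Y : Set V} {c : V}

theorem comp_self : c ∈ comp G Y c := Relation.ReflTransGen.refl

theorem comp_sub (hc : c ∈ Y) : comp G Y c ⊆ Y := by
  intro v hv
  rcases Relation.ReflTransGen.cases_tail hv with h | ⟨b, _, h⟩
  · rw [h]; exact hc
  · exact h.2

theorem comp_step {u v : V} (hu : u ∈ comp G Y c) (h : G.Adj u v) (hv : v ∈ Y) :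
    v ∈ comp G Y c := Relation.ReflTransGen.tail hu ⟨h, hv⟩

theorem comp_le {D : Set V} (hc : c ∈ D) (hD : ∀ u ∈ D, ∀ v ∈ Y, G.Adj u v → v ∈ D) :
    comp G Y c ⊆ D := by
  intro v hv
  change Relation.ReflTransGen _ c v at hv
  induction hv with
  | refl => exact hc
  | tail _ h ih => exact hD _ ih _ h.2 h.1

theorem comp_reach : ∀ v (hv : v ∈ comp G Y c),
    (G.induce (comp G Y c)).Reachable ⟨c, comp_self⟩ ⟨v, hv⟩ := by
  intro v hv
  have hv' : Relation.ReflTransGen (fun a b => G.Adj a b ∧ b ∈ Y) c v := hv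
  induction hv' with
  | refl => exact Reachable.refl _
  | @tail a b h1 h2 ih =>
    exact (ih h1).trans (Adj.reachable (show G.Adj a b from h2.1))

theorem comp_conn : (G.induce (comp G Y c)).Connected := by
  have : Nonempty (comp G Y c) := ⟨⟨c, comp_self⟩⟩
  exact ⟨fun a b => (comp_reach a.1 a.2).symm.trans (comp_reach b.1 b.2)⟩

end comp

/-- minors inside vertex sets -/
theorem minor_map {U : Type} {A : SimpleGraph U} {G G' : SimpleGraph V} {Z X : Set V}
    (ν : V → Set V) (h0 : ∀ v ∈ Z, ν v ⊆ X) (h1 : ∀ v ∈ Z, (G.induce (ν v)).Connected)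
    (h2 : ∀ u ∈ Z, ∀ v ∈ Z, u ≠ v → Disjoint (ν u) (ν v))
    (h3 : ∀ u ∈ Z, ∀ v ∈ Z, G'.Adj u v → ∃ a ∈ ν u, ∃ b ∈ ν v, G.Adj a b)
    (h : IsMinor A (G'.induce Z)) : IsMinor A (G.induce X) := by
  refine minor_trans h ⟨fun z => {x : X | x.1 ∈ ν z.1}, ?_, ?_, ?_⟩
  · intro z
    have hc := h1 z.1 z.2
    let f : G.induce (ν z.1) →g (G.induce X).induce {x : X | x.1 ∈ ν z.1} :=
      ⟨fun a => ⟨⟨a.1, h0 z.1 z.2 a.2⟩, a.2⟩, fun h => h⟩
    obtain ⟨⟨a0, ha0⟩⟩ := hc.nonempty
    have : Nonempty {x : X | x.1 ∈ ν z.1} := ⟨⟨⟨a0, h0 z.1 z.2 ha0⟩, ha0⟩⟩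
    exact ⟨fun a b => (hc.preconnected ⟨a.1.1, a.2⟩ ⟨b.1.1, b.2⟩).map f⟩
  · intro a b hab
    have hab' : a.1 ≠ b.1 := fun h => hab (Subtype.ext h)
    rw [Set.disjoint_left]
    intro x hx hx'
    exact Set.disjoint_left.1 (h2 a.1 a.2 b.1 b.2 hab') hx hx'
  · intro a b hab
    obtain ⟨p, hp, q, hq, hpq⟩ := h3 a.1 a.2 b.1 b.2 hab
    exact ⟨⟨p, h0 a.1 a.2 hp⟩, hp, ⟨q, h0 b.1 b.2 hq⟩, hq, hpq⟩

theorem minor_sub {U : Type} {A : SimpleGraph U} {G : SimpleGraph V} {Z X : Set V} (hZ : Z ⊆ X)
    (h : IsMinor A (G.induce Z)) : IsMinor A (G.induce X) := by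
  refine minor_map (fun v => {v}) (fun v hv => ?_) (fun v _ => conn_single G v)
    (fun u _ v _ huv => ?_) (fun u _ v _ huv => ⟨u, rfl, v, rfl, huv⟩) h
  · rintro x rfl
    exact hZ hv
  · rw [Set.disjoint_left]
    rintro x rfl hx
    exact huv hx

/-- contracting two sets into two vertices of `K` -/
theorem k_gen {U : Type} {A : SimpleGraph U} {G : SimpleGraph V} {X Z K : Set V} (hZ : Z ⊆ X)
    {s1 s2 : V} (h12 : s1 ≠ s2) {N1 N2 : Set V} (n1 : N1 ⊆ X) (n2 : N2 ⊆ X) (m1 : s1 ∈ N1)
    (m2 : s2 ∈ N2) (z1 : ∀ v ∈ N1, v ∈ Z → v = s1) (z2 : ∀ v ∈ N2, v ∈ Z → v = s2)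
    (hd : Disjoint N1 N2) (c1 : (G.induce N1).Connected) (c2 : (G.induce N2).Connected)
    (e1 : ∀ v ∈ K, v ≠ s1 → v ≠ s2 → ∃ a ∈ N1, G.Adj a v)
    (e2 : ∀ v ∈ K, v ≠ s1 → v ≠ s2 → ∃ a ∈ N2, G.Adj a v)
    (e12 : ∃ a ∈ N1, ∃ b ∈ N2, G.Adj a b)
    (h3 : ∀ u ∈ K, ∀ v ∈ K, u ≠ v → u = s1 ∨ u = s2 ∨ v = s1 ∨ v = s2)
    (hno : ¬ IsMinor A (G.induce X)) : ¬ IsMinor A ((G ⊔ cl K).induce Z) := by
  classical
  intro h
  apply hno
  let ν : V → Set V := fun v => if v = s1 then N1 else if v = s2 then N2 else {v}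
  have ν1 : ν s1 = N1 := if_pos rfl
  have ν2 : ν s2 = N2 := by
    show (if s2 = s1 then N1 else if s2 = s2 then N2 else {s2}) = N2
    rw [if_neg h12.symm, if_pos rfl]
  have ν3 : ∀ v, v ≠ s1 → v ≠ s2 → ν v = {v} := by
    intro v h1 h2
    show (if v = s1 then N1 else if v = s2 then N2 else {v}) = {v}
    rw [if_neg h1, if_neg h2]
  have νs : ∀ v, v ∈ ν v := by
    intro v
    by_cases h1 : v = s1
    · rw [h1, ν1]; exact m1
    by_cases h2 : v = s2
    · rw [h2, ν2]; exact m2
    rw [ν3 v h1 h2]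
    rfl
  refine minor_map ν ?_ ?_ ?_ ?_ h
  · intro v hv
    by_cases h1 : v = s1
    · rw [h1, ν1]; exact n1
    by_cases h2 : v = s2
    · rw [h2, ν2]; exact n2
    rw [ν3 v h1 h2]
    rintro x rfl
    exact hZ hv
  · intro v hv
    by_cases h1 : v = s1
    · rw [h1, ν1]; exact c1
    by_cases h2 : v = s2
    · rw [h2, ν2]; exact c2
    rw [ν3 v h1 h2]
    exact conn_single G v
  · have key : ∀ u ∈ Z, ∀ v ∈ Z, u ≠ v → ∀ x, x ∈ ν u → x ∈ ν v → False := by
      intro u hu v hv huv x hx hx'
      by_cases h1 : u = s1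
      · rw [h1, ν1] at hx
        by_cases h2 : v = s2
        · rw [h2, ν2] at hx'
          exact Set.disjoint_left.1 hd hx hx'
        · have h1' : v ≠ s1 := fun h => huv (h1.trans h.symm)
          rw [ν3 v h1' h2] at hx'
          have hxv : x = v := hx'
          exact h1' (z1 v (hxv ▸ hx) hv)
      by_cases h2 : u = s2
      · rw [h2, ν2] at hx
        by_cases h1' : v = s1
        · rw [h1', ν1] at hx'
          exact Set.disjoint_left.1 hd hx' hx
        · have h2' : v ≠ s2 := fun h => huv (h2.trans h.symm)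
          rw [ν3 v h1' h2'] at hx'
          have hxv : x = v := hx'
          exact h2' (z2 v (hxv ▸ hx) hv)
      rw [ν3 u h1 h2] at hx
      have hxu : x = u := hx
      by_cases h1' : v = s1
      · rw [h1', ν1] at hx'
        exact h1 (z1 u (hxu ▸ hx') hu)
      by_cases h2' : v = s2
      · rw [h2', ν2] at hx'
        exact h2 (z2 u (hxu ▸ hx') hu)
      rw [ν3 v h1' h2'] at hx'
      have hxv : x = v := hx'
      exact huv (hxu.symm.trans hxv)
    intro u hu v hv huv
    rw [Set.disjoint_left]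
    intro x hx hx'
    exact key u hu v hv huv x hx hx'
  · intro u hu v hv huv
    rcases huv with huv | ⟨hne, huK, hvK⟩
    · exact ⟨u, νs u, v, νs v, huv⟩
    · by_cases h1 : u = s1
      · by_cases h2' : v = s2
        · rw [h1, h2', ν1, ν2]; exact e12
        · have h1' : v ≠ s1 := fun h => hne (h1.trans h.symm)
          obtain ⟨a, ha, hav⟩ := e1 v hvK h1' h2'
          rw [h1, ν1]
          exact ⟨a, ha, v, νs v, hav⟩
      by_cases h2 : u = s2
      · by_cases h1' : v = s1
        · obtain ⟨a, ha, b, hb, hab⟩ := e12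
          rw [h2, h1', ν1, ν2]
          exact ⟨b, hb, a, ha, hab.symm⟩
        · have h2' : v ≠ s2 := fun h => hne (h2.trans h.symm)
          obtain ⟨a, ha, hav⟩ := e2 v hvK h1' h2'
          rw [h2, ν2]
          exact ⟨a, ha, v, νs v, hav⟩
      by_cases h1' : v = s1
      · obtain ⟨a, ha, hau⟩ := e1 u huK h1 h2
        rw [h1', ν1]
        exact ⟨u, νs u, a, ha, hau.symm⟩
      by_cases h2' : v = s2
      · obtain ⟨a, ha, hau⟩ := e2 u huK h1 h2
        rw [h2', ν2]
        exact ⟨u, νs u, a, ha, hau.symm⟩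
      rcases h3 u huK v hvK hne with h | h | h | h
      · exact absurd h h1
      · exact absurd h h2
      · exact absurd h h1'
      · exact absurd h h2'

theorem sup_cl {G : SimpleGraph V} {K : Set V} (h : Clq G K) : G ⊔ cl K = G := by
  ext u v
  constructor
  · rintro (h1 | ⟨h1, h2, h3⟩)
    · exact h1
    · exact h u h2 v h3 h1
  · exact fun h => Or.inl h

theorem con_insert {G : SimpleGraph V} {s : V} {D : Set V} (hD : (G.induce D).Connected)
    (h : ∃ a ∈ D, G.Adj a s) : (G.induce (insert s D)).Connected := by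
  obtain ⟨a, ha, has⟩ := h
  have : Nonempty (insert s D : Set V) := ⟨⟨s, Or.inl rfl⟩⟩
  have key : ∀ z : (insert s D : Set V), (G.induce (insert s D)).Reachable ⟨a, Or.inr ha⟩ z := by
    rintro ⟨z, hz | hz⟩
    · subst hz
      exact Adj.reachable (show G.Adj a z from has)
    · exact ((hD.preconnected ⟨a, ha⟩ ⟨z, hz⟩).map
        (induceHomOfLE G (Set.subset_insert s D)).toHom)
  exact ⟨fun x y => (key x).symm.trans (key y)⟩

theorem Good.mono {A : ∀ W : Type, SimpleGraph W → Prop} {G G' : SimpleGraph V} {X R : Set V}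
    (h : G ≤ G') (hg : Good A G' X R) : Good A G X R := by
  obtain ⟨H, e, r⟩ := hg
  exact ⟨H, fun u hu v hv huv => e u hu v hv (h huv), r⟩

/-- no minor with more vertices -/
theorem minor_card {U W : Type} [Finite W] {A : SimpleGraph U} {G : SimpleGraph W}
    (h : IsMinor A G) : Nat.card U ≤ Nat.card W := by
  obtain ⟨μ, h1, h2, _⟩ := h
  have hne : ∀ a, ∃ x, x ∈ μ a := fun a => by
    obtain ⟨⟨x, hx⟩⟩ := (h1 a).nonempty
    exact ⟨x, hx⟩
  choose f hf using hne
  have hinj : Function.Injective f := by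
    intro a b hab
    by_contra hne
    exact Set.disjoint_left.1 (h2 a b hne) (hf a) (hab ▸ hf b)
  exact Nat.card_le_card_of_injective f hinj

/-- a complete graph with at most three vertices is a piece -/
theorem atom_small [Finite V] {G : SimpleGraph V} {S : Set V} (hS : S.ncard ≤ 3)
    (hne : S.Nonempty) (hc : Clq G S) : Atom S (G.induce S) := by
  have hcard : Nat.card S ≤ 3 := by rw [Nat.card_coe_set_eq]; exact hS
  refine ⟨hne.to_subtype, ?_, ?_, ?_⟩
  · intro K _ _ a b
    by_cases hab : a = b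
    · subst hab; exact Reachable.refl _
    · have : a.1.1 ≠ b.1.1 := fun h => hab (Subtype.ext (Subtype.ext h))
      exact Adj.reachable (show G.Adj a.1.1 b.1.1 from hc _ a.1.2 _ b.1.2 this)
  · intro h
    have := minor_card h
    simp at this
    omega
  · left
    intro h
    have := minor_card h
    simp at this
    omega

/-- the recursion -/
theorem good [Finite V] (hW : WStmt) : ∀ (n : ℕ) (X : Set V), X.ncard ≤ n → X.Nonempty →
    ∀ G : SimpleGraph V, ¬ IsMinor K5 (G.induce X) → ∀ R ⊆ X, Clq G R → Good Atom G X R := by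
  intro n
  induction n with
  | zero =>
    intro X hX hne
    have : X = ∅ := (Set.ncard_eq_zero (Set.toFinite X)).1 (Nat.le_zero.1 hX)
    rw [this] at hne
    exact absurd hne Set.not_nonempty_empty
  | succ n ih =>
    intro X hX hXne G hG R hRX hR
    have small : ∀ Y : Set V, Y ⊆ X → (∃ y ∈ X, y ∉ Y) → Y.ncard ≤ n := by
      intro Y hY ⟨y, hy, hyY⟩
      have h1 : Y.ncard < X.ncard :=
        Set.ncard_lt_ncard ⟨hY, fun h => hyY (h hy)⟩ (Set.toFinite X)
      omega
    by_cases hsep : ∃ K C : Set V, K ⊆ X ∧ C ⊆ X ∧ C.Nonempty ∧ (∀ v ∈ C, v ∉ K) ∧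
        K.ncard ≤ 3 ∧ Clq G K ∧ (∀ u ∈ C, ∀ v ∈ X, G.Adj u v → v ∈ C ∨ v ∈ K) ∧
        ∃ y ∈ X, y ∉ C ∧ y ∉ K
    · obtain ⟨K, C, hKX, hCX, hCne, hCK, hK3, hKc, hcl, y, hy, hyC, hyK⟩ := hsep
      refine Good.split hCX hKX hCK hK3 hcl hRX hR ?_ ?_
      · rw [sup_cl hKc]
        intro R' hR' hRc'
        have hsub : C ∪ K ⊆ X := Set.union_subset hCX hKX
        exact ih _ (small _ hsub ⟨y, hy, fun h => h.elim hyC hyK⟩)
          (hCne.mono Set.subset_union_left) G (fun h => hG (minor_sub hsub h)) R' hR' hRc'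
      · rw [sup_cl hKc]
        intro R' hR' hRc'
        have hsub : X \ C ⊆ X := Set.diff_subset
        obtain ⟨c, hc⟩ := hCne
        exact ih _ (small _ hsub ⟨c, hCX hc, fun h => h.2 hc⟩)
          ⟨y, hy, hyC⟩ G (fun h => hG (minor_sub hsub h)) R' hR' hRc'
    have nosep : ∀ K C : Set V, K ⊆ X → C ⊆ X → C.Nonempty → (∀ v ∈ C, v ∉ K) →
        K.ncard ≤ 3 → Clq G K → (∀ u ∈ C, ∀ v ∈ X, G.Adj u v → v ∈ C ∨ v ∈ K) →
        ∀ y ∈ X, y ∉ C → y ∉ K → False := by
      intro K C h1 h2 h3 h4 h5 h6 h7 y hy hyC hyK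
      exact hsep ⟨K, C, h1, h2, h3, h4, h5, h6, h7, y, hy, hyC, hyK⟩
    by_cases h2 : ∃ s ∈ X, ∃ t ∈ X, ∃ C ⊆ X, C.Nonempty ∧ s ∉ C ∧ t ∉ C ∧
        (∀ u ∈ C, ∀ v ∈ X, G.Adj u v → v ∈ C ∨ v = s ∨ v = t) ∧ ∃ y ∈ X, y ∉ C ∧ y ≠ s ∧ y ≠ t
    · obtain ⟨s, hs, t, ht, C, hCX, ⟨c, hc⟩, hsC, htC, hcl, y, hy, hyC, hys, hyt⟩ := h2
      -- `s ≠ t`, not adjacent
      have hK2 : ({s, t} : Set V).ncard ≤ 3 := by
        have := Set.ncard_insert_le s {t}
        rw [Set.ncard_singleton] at this
        omega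
      have hKX : ({s, t} : Set V) ⊆ X := by
        rintro x (rfl | rfl)
        · exact hs
        · exact ht
      have hnst : ¬ (s = t ∨ G.Adj s t) := by
        intro hst
        refine nosep {s, t} C hKX hCX ⟨c, hc⟩ ?_ hK2 ?_ ?_ y hy hyC ?_
        · rintro v hv (rfl | rfl)
          · exact hsC hv
          · exact htC hv
        · rintro u (rfl | rfl) v (rfl | rfl) huv
          · exact absurd rfl huv
          · exact hst.resolve_left huv
          · exact (hst.resolve_left (Ne.symm huv)).symm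
          · exact absurd rfl huv
        · intro u hu v hv huv
          rcases hcl u hu v hv huv with h | h | h
          · exact Or.inl h
          · exact Or.inr (Or.inl h)
          · exact Or.inr (Or.inr h)
        · rintro (h | h)
          · exact hys h
          · exact hyt h
      have hst : s ≠ t := fun h => hnst (Or.inl h)
      set Y : Set V := X \ {s, t} with hY
      have memY : ∀ v, v ∈ X → v ≠ s → v ≠ t → v ∈ Y := by
        intro v hv h1 h2
        exact ⟨hv, fun h => h.elim h1 h2⟩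
      have hcs : c ≠ s := fun h => hsC (h ▸ hc)
      have hct : c ≠ t := fun h => htC (h ▸ hc)
      have hcY : c ∈ Y := memY c (hCX hc) hcs hct
      have hyY : y ∈ Y := memY y hy hys hyt
      have adjE : ∀ e ∈ Y, ∀ s' t' : V, s' ≠ t' → s' ∈ X → t' ∈ X →
          (∀ v ∈ X, v ≠ s' → v ≠ t' → v ∈ Y) → (∀ v ∈ Y, v ≠ s' ∧ v ≠ t') →
          ∃ a ∈ comp G Y e, G.Adj a s' := by
        intro e he s' t' hst' hs' ht' hmem hmem'
        by_contra hno
        push Not at hno
        have hEY : comp G Y e ⊆ Y := comp_sub he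
        refine nosep {t'} (comp G Y e) (by rintro x rfl; exact ht')
          (fun v hv => (hEY hv).1) ⟨e, comp_self⟩ ?_ (by rw [Set.ncard_singleton]; omega) ?_ ?_
          s' hs' ?_ ?_
        · rintro v hv rfl
          exact (hmem' v (hEY hv)).2 rfl
        · rintro u rfl v rfl huv
          exact absurd rfl huv
        · intro u hu v hv huv
          by_cases h1 : v = t'
          · exact Or.inr h1
          · have h2 : v ≠ s' := by
              rintro rfl
              exact hno u hu huv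
            exact Or.inl (comp_step hu huv (hmem v hv h2 h1))
        · intro h
          exact (hmem' s' (hEY h)).1 rfl
        · exact hst'
      have adjs : ∀ e ∈ Y, ∃ a ∈ comp G Y e, G.Adj a s := fun e he =>
        adjE e he s t hst hs ht memY (fun v hv => ⟨fun h => hv.2 (Or.inl h),
          fun h => hv.2 (Or.inr h)⟩)
      have adjt : ∀ e ∈ Y, ∃ a ∈ comp G Y e, G.Adj a t := fun e he =>
        adjE e he t s hst.symm ht hs (fun v hv h1 h2 => memY v hv h2 h1)
          (fun v hv => ⟨fun h => hv.2 (Or.inr h), fun h => hv.2 (Or.inl h)⟩)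
      set C' := comp G Y c with hC'
      set D' := comp G Y y with hD'
      have hC'Y : C' ⊆ Y := comp_sub hcY
      have hD'Y : D' ⊆ Y := comp_sub hyY
      have hC'C : C' ⊆ C := by
        refine comp_le hc ?_
        intro u hu v hv huv
        rcases hcl u hu v hv.1 huv with h | h | h
        · exact h
        · exact absurd (Or.inl h) hv.2
        · exact absurd (Or.inr h) hv.2
      have hD'C : D' ⊆ Y \ C := by
        refine comp_le ⟨hyY, hyC⟩ ?_
        intro u hu v hv huv
        refine ⟨hv, fun hvC => ?_⟩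
        rcases hcl v hvC u hu.1.1 huv.symm with h | h | h
        · exact hu.2 h
        · exact hu.1.2 (Or.inl h)
        · exact hu.1.2 (Or.inr h)
      refine Good.split (C := C') (K := {s, t}) (fun v hv => (hC'Y hv).1) hKX
        (fun v hv => (hC'Y hv).2) hK2 ?_ hRX hR ?_ ?_
      · intro u hu v hv huv
        by_cases h : v ∈ ({s, t} : Set V)
        · exact Or.inr h
        · exact Or.inl (comp_step hu huv ⟨hv, h⟩)
      · intro R' hR' hRc'
        have hsub : C' ∪ {s, t} ⊆ X := Set.union_subset (fun v hv => (hC'Y hv).1) hKX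
        refine ih _ (small _ hsub ⟨y, hy, ?_⟩) ⟨c, Or.inl comp_self⟩ _ ?_ R' hR' hRc'
        · rintro (h | h)
          · exact hyC (hC'C h)
          · exact hyY.2 h
        · refine k_gen (N1 := insert s D') (N2 := {t}) hsub hst ?_ ?_ (Or.inl rfl) rfl ?_ ?_ ?_
            (con_insert comp_conn (adjs y hyY)) (conn_single G t) ?_ ?_ ?_ ?_ hG
          · rintro x (rfl | hx)
            · exact hs
            · exact (hD'Y hx).1
          · rintro x rfl
            exact ht
          · rintro v (rfl | hv) hvZ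
            · rfl
            · exfalso
              rcases hvZ with h | h
              · exact (hD'C hv).2 (hC'C h)
              · exact (hD'Y hv).2 h
          · intro v hv _
            exact hv
          · rw [Set.disjoint_left]
            rintro x (rfl | hx) hx'
            · exact hst hx'
            · exact (hD'Y hx).2 (Or.inr hx')
          · rintro v (rfl | rfl) h1 h2
            · exact absurd rfl h1
            · exact absurd rfl h2
          · rintro v (rfl | rfl) h1 h2
            · exact absurd rfl h1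
            · exact absurd rfl h2
          · obtain ⟨a, ha, hat⟩ := adjt y hyY
            exact ⟨a, Or.inr ha, t, rfl, hat⟩
          · rintro u (rfl | rfl) v _ _
            · exact Or.inl rfl
            · exact Or.inr (Or.inl rfl)
      · intro R' hR' hRc'
        have hsub : X \ C' ⊆ X := Set.diff_subset
        refine ih _ (small _ hsub ⟨c, hcY.1, fun h => h.2 comp_self⟩)
          ⟨y, hy, fun h => hyC (hC'C h)⟩ _ ?_ R' hR' hRc'
        refine k_gen (N1 := insert s C') (N2 := {t}) hsub hst ?_ ?_ (Or.inl rfl) rfl ?_ ?_ ?_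
          (con_insert comp_conn (adjs c hcY)) (conn_single G t) ?_ ?_ ?_ ?_ hG
        · rintro x (rfl | hx)
          · exact hs
          · exact (hC'Y hx).1
        · rintro x rfl
          exact ht
        · rintro v (rfl | hv) hvZ
          · rfl
          · exact absurd hv hvZ.2
        · intro v hv _
          exact hv
        · rw [Set.disjoint_left]
          rintro x (rfl | hx) hx'
          · exact hst hx'
          · exact (hC'Y hx).2 (Or.inr hx')
        · rintro v (rfl | rfl) h1 h2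
          · exact absurd rfl h1
          · exact absurd rfl h2
        · rintro v (rfl | rfl) h1 h2
          · exact absurd rfl h1
          · exact absurd rfl h2
        · obtain ⟨a, ha, hat⟩ := adjt c hcY
          exact ⟨a, Or.inr ha, t, rfl, hat⟩
        · rintro u (rfl | rfl) v _ _
          · exact Or.inl rfl
          · exact Or.inr (Or.inl rfl)
    -- now `G[X]` is 3-connected
    have hc3 : ∀ s ∈ X, ∀ t ∈ X, ∀ C ⊆ X, C.Nonempty → s ∉ C → t ∉ C →
        (∀ u ∈ C, ∀ v ∈ X, G.Adj u v → v ∈ C ∨ v = s ∨ v = t) →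
        ∀ y ∈ X, y ∉ C → y ≠ s → y ≠ t → False := by
      intro s hs t ht C hC h3 h4 h5 h6 y hy h7 h8 h9
      exact h2 ⟨s, hs, t, ht, C, hC, h3, h4, h5, h6, y, hy, h7, h8, h9⟩
    have hconn3 : Conn3 (G.induce X) := by
      intro s t C hne hsC htC hcl y
      by_contra hy
      push Not at hy
      refine hc3 s.1 s.2 t.1 t.2 (Subtype.val '' C) ?_ (hne.image _) ?_ ?_ ?_ y.1 y.2 ?_
        (fun h => hy.2.1 (Subtype.ext h)) (fun h => hy.2.2 (Subtype.ext h))
      · rintro _ ⟨x, _, rfl⟩
        exact x.2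
      · rintro ⟨x, hx, hxs⟩
        exact hsC (Subtype.ext hxs ▸ hx)
      · rintro ⟨x, hx, hxs⟩
        exact htC (Subtype.ext hxs ▸ hx)
      · rintro _ ⟨x, hx, rfl⟩ v hv hxv
        rcases hcl x hx ⟨v, hv⟩ hxv with h | h | h
        · exact Or.inl ⟨_, h, rfl⟩
        · exact Or.inr (Or.inl (congrArg Subtype.val h))
        · exact Or.inr (Or.inr (congrArg Subtype.val h))
      · rintro ⟨x, hx, hxs⟩
        exact hy.1 (Subtype.ext hxs ▸ hx)
    have hpre : ∀ K : Set X, K.ncard ≤ 3 → Clq (G.induce X) K →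
        ((G.induce X).induce Kᶜ).Preconnected := by
      intro K hK hKc a b
      have haY : a.1.1 ∈ X \ (Subtype.val '' K) := ⟨a.1.2, by
        rintro ⟨x, hx, hxa⟩
        exact a.2 (Subtype.ext hxa ▸ hx)⟩
      have hbK : b.1.1 ∉ (Subtype.val '' K : Set V) := by
        rintro ⟨x, hx, hxa⟩
        exact b.2 (Subtype.ext hxa ▸ hx)
      have hsub := comp_sub (G := G) haY
      have hb : b.1.1 ∈ comp G (X \ (Subtype.val '' K)) a.1.1 := by
        by_contra hb
        refine nosep (Subtype.val '' K) (comp G (X \ (Subtype.val '' K)) a.1.1) ?_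
          (fun v hv => (hsub hv).1) ⟨_, comp_self⟩ (fun v hv => (hsub hv).2) ?_ ?_ ?_ b.1.1 b.1.2
          hb hbK
        · rintro _ ⟨x, _, rfl⟩
          exact x.2
        · exact (Set.ncard_image_le (Set.toFinite K)).trans hK
        · rintro _ ⟨x, hx, rfl⟩ _ ⟨z, hz, rfl⟩ hxz
          exact hKc x hx z hz (fun h => hxz (congrArg Subtype.val h))
        · intro u hu v hv huv
          by_cases h : v ∈ (Subtype.val '' K : Set V)
          · exact Or.inr h
          · exact Or.inl (comp_step hu huv ⟨hv, h⟩)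
      let f : G.induce (comp G (X \ (Subtype.val '' K)) a.1.1) →g (G.induce X).induce Kᶜ :=
        ⟨fun z => ⟨⟨z.1, (hsub z.2).1⟩, fun hz => (hsub z.2).2 ⟨_, hz, rfl⟩⟩, fun h => h⟩
      exact (comp_reach b.1.1 hb).map f
    by_cases h33 : IsMinor K33 (G.induce X)
    swap
    · exact Good.one hRX ⟨hXne.to_subtype, hpre, hG, Or.inl h33⟩
    rcases hW X (G.induce X) hconn3 hG h33 with h8 | ⟨S, A, hS3, hAne, hAS, hAd, hAcl⟩
    · exact Good.one hRX ⟨hXne.to_subtype, hpre, hG, Or.inr h8⟩
    -- three components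
    classical
    obtain ⟨s1, s2, s3, h12, h13, h23, hSe⟩ := Finset.card_eq_three.1 hS3
    have n12 : s1.1 ≠ s2.1 := fun h => h12 (Subtype.ext h)
    have n13 : s1.1 ≠ s3.1 := fun h => h13 (Subtype.ext h)
    have n23 : s2.1 ≠ s3.1 := fun h => h23 (Subtype.ext h)
    set T : Set V := {s1.1, s2.1, s3.1} with hT
    have hTX : T ⊆ X := by
      rintro x (rfl | rfl | rfl)
      · exact s1.2
      · exact s2.2
      · exact s3.2
    have hT3 : T.ncard ≤ 3 := by
      have h1 := Set.ncard_insert_le s1.1 ({s2.1, s3.1} : Set V)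
      have h2 := Set.ncard_insert_le s2.1 ({s3.1} : Set V)
      rw [Set.ncard_singleton] at h2
      rw [hT]
      omega
    have memS : ∀ x : X, x.1 ∈ T → x ∈ S := by
      rintro x (h | h | h)
      · have : x = s1 := Subtype.ext h
        rw [this, hSe]; simp
      · have : x = s2 := Subtype.ext h
        rw [this, hSe]; simp
      · have : x = s3 := Subtype.ext h
        rw [this, hSe]; simp
    have memT : ∀ x : X, x ∈ S → x.1 ∈ T := by
      intro x hx
      rw [hSe] at hx
      simp only [Finset.mem_insert, Finset.mem_singleton] at hx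
      rcases hx with rfl | rfl | rfl
      · exact Or.inl rfl
      · exact Or.inr (Or.inl rfl)
      · exact Or.inr (Or.inr rfl)
    set Y : Set V := X \ T with hY
    -- closed sets
    let D : Fin 3 → Set V := fun i => Subtype.val '' (A i)
    have hDY : ∀ i, D i ⊆ Y := by
      rintro i _ ⟨x, hx, rfl⟩
      exact ⟨x.2, fun h => hAS i x hx (memS x h)⟩
    have hDcl : ∀ i, ∀ u ∈ D i, ∀ v ∈ Y, G.Adj u v → v ∈ D i := by
      rintro i _ ⟨x, hx, rfl⟩ v hv hxv
      by_contra hno
      have : (⟨v, hv.1⟩ : X) ∉ A i := fun h => hno ⟨_, h, rfl⟩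
      exact hv.2 (memT _ (hAcl i x hx ⟨v, hv.1⟩ hxv this))
    have hDd : ∀ i j, i ≠ j → ∀ v, v ∈ D i → v ∈ D j → False := by
      rintro i j hij _ ⟨x, hx, rfl⟩ ⟨z, hz, hzx⟩
      have : z = x := Subtype.ext hzx
      rw [this] at hz
      exact Set.disjoint_left.1 (hAd i j hij) hx hz
    -- every component sees the three vertices
    have sees : ∀ e ∈ Y, ∀ s ∈ T, ∃ a ∈ comp G Y e, G.Adj a s := by
      intro e he s hs
      have hEY : comp G Y e ⊆ Y := comp_sub he
      have gen : ∀ p q : V, p ∈ T → q ∈ T → s ≠ p → s ≠ q → (∀ v ∈ T, v = s ∨ v = p ∨ v = q) →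
          ∃ a ∈ comp G Y e, G.Adj a s := by
        intro p q hp hq hsp hsq hall
        by_contra hno
        push Not at hno
        refine hc3 p (hTX hp) q (hTX hq) (comp G Y e) (fun v hv => (hEY hv).1) ⟨e, comp_self⟩
          (fun h => (hEY h).2 hp) (fun h => (hEY h).2 hq) ?_ s (hTX hs) (fun h => (hEY h).2 hs)
          hsp hsq
        intro u hu v hv huv
        by_cases hvT : v ∈ T
        · rcases hall v hvT with h | h | h
          · exact absurd (h ▸ huv) (hno u hu)
          · exact Or.inr (Or.inl h)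
          · exact Or.inr (Or.inr h)
        · exact Or.inl (comp_step hu huv ⟨hv, hvT⟩)
      have t1 : s1.1 ∈ T := Or.inl rfl
      have t2 : s2.1 ∈ T := Or.inr (Or.inl rfl)
      have t3 : s3.1 ∈ T := Or.inr (Or.inr rfl)
      rcases hs with h | h | h
      · subst h
        exact gen s2.1 s3.1 t2 t3 n12 n13 (fun v hv => hv)
      · have h' : s = s2.1 := h
        subst h'
        refine gen s1.1 s3.1 t1 t3 n12.symm n23 (fun v hv => ?_)
        rcases hv with h | h | h
        · exact Or.inr (Or.inl h)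
        · exact Or.inl h
        · exact Or.inr (Or.inr h)
      · have h' : s = s3.1 := h
        subst h'
        refine gen s1.1 s2.1 t1 t2 n13.symm n23.symm (fun v hv => ?_)
        rcases hv with h | h | h
        · exact Or.inr (Or.inl h)
        · exact Or.inr (Or.inr h)
        · exact Or.inl h
    -- two more components
    have two : ∀ e ∈ Y, ∃ f ∈ Y, ∃ f' ∈ Y, (∀ v ∈ comp G Y f, v ∉ comp G Y e) ∧
        (∀ v ∈ comp G Y f', v ∉ comp G Y e) ∧ (∀ v ∈ comp G Y f, v ∉ comp G Y f') := by
      intro e he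
      have pick : ∀ i j : Fin 3, i ≠ j → (∀ v ∈ comp G Y e, v ∉ D i) →
          (∀ v ∈ comp G Y e, v ∉ D j) → ∃ f ∈ Y, ∃ f' ∈ Y, (∀ v ∈ comp G Y f, v ∉ comp G Y e) ∧
          (∀ v ∈ comp G Y f', v ∉ comp G Y e) ∧ (∀ v ∈ comp G Y f, v ∉ comp G Y f') := by
        intro i j hij hi hj
        obtain ⟨⟨f, hfX⟩, hf⟩ := hAne i
        obtain ⟨⟨f', hfX'⟩, hf'⟩ := hAne j
        have hfD : f ∈ D i := ⟨_, hf, rfl⟩
        have hfD' : f' ∈ D j := ⟨_, hf', rfl⟩
        have c1 : comp G Y f ⊆ D i := comp_le hfD (hDcl i)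
        have c2 : comp G Y f' ⊆ D j := comp_le hfD' (hDcl j)
        exact ⟨f, hDY i hfD, f', hDY j hfD', fun v hv hv' => hi v hv' (c1 hv),
          fun v hv hv' => hj v hv' (c2 hv), fun v hv hv' => hDd i j hij v (c1 hv) (c2 hv')⟩
      have one : ∀ i : Fin 3, (∃ v ∈ comp G Y e, v ∈ D i) → comp G Y e ⊆ D i := by
        rintro i ⟨v, hv, hvi⟩
        by_contra hno
        rw [Set.not_subset] at hno
        have hsub : comp G Y e ⊆ Y \ D i := by
          have he' : e ∈ Y \ D i := by
            refine ⟨he, fun heD => ?_⟩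
            obtain ⟨w, hw, hw'⟩ := hno
            exact hw' (comp_le heD (hDcl i) hw)
          refine comp_le he' ?_
          intro a ha b hb hab
          exact ⟨hb, fun hbD => ha.2 (hDcl i b hbD a ha.1 hab.symm)⟩
        exact (hsub hv).2 hvi
      by_cases h0 : ∃ v ∈ comp G Y e, v ∈ D 0
      · have := one 0 h0
        exact pick 1 2 (by decide) (fun v hv hv' => hDd 0 1 (by decide) v (this hv) hv')
          (fun v hv hv' => hDd 0 2 (by decide) v (this hv) hv')
      by_cases h1 : ∃ v ∈ comp G Y e, v ∈ D 1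
      · have := one 1 h1
        exact pick 0 2 (by decide) (fun v hv hv' => hDd 1 0 (by decide) v (this hv) hv')
          (fun v hv hv' => hDd 1 2 (by decide) v (this hv) hv')
      push Not at h0 h1
      exact pick 0 1 (by decide) h0 h1
    have hTc : Clq (G ⊔ cl T) T := fun u hu v hv huv => Or.inr ⟨huv, hu, hv⟩
    -- one component together with `T`
    have compGood : ∀ e ∈ Y, ∀ R', R' ⊆ comp G Y e ∪ T → Clq (G ⊔ cl T) R' →
        Good Atom (G ⊔ cl T) (comp G Y e ∪ T) R' := by
      intro e he R' hR' hRc'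
      obtain ⟨f, hf, f', hf', d1, d2, d3⟩ := two e he
      have hEY : comp G Y e ⊆ Y := comp_sub he
      have hFY : comp G Y f ⊆ Y := comp_sub hf
      have hFY' : comp G Y f' ⊆ Y := comp_sub hf'
      have t1 : s1.1 ∈ T := Or.inl rfl
      have t2 : s2.1 ∈ T := Or.inr (Or.inl rfl)
      have t3 : s3.1 ∈ T := Or.inr (Or.inr rfl)
      have hsub : comp G Y e ∪ T ⊆ X := Set.union_subset (fun v hv => (hEY hv).1) hTX
      refine ih _ (small _ hsub ⟨f, hf.1, ?_⟩) ⟨e, Or.inl comp_self⟩ _ ?_ R' hR' hRc'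
      · rintro (h | h)
        · exact d1 f comp_self h
        · exact hf.2 h
      · refine k_gen (N1 := insert s1.1 (comp G Y f)) (N2 := insert s2.1 (comp G Y f')) hsub n12
          ?_ ?_ (Or.inl rfl) (Or.inl rfl) ?_ ?_ ?_ (con_insert comp_conn (sees f hf _ t1))
          (con_insert comp_conn (sees f' hf' _ t2)) ?_ ?_ ?_ ?_ hG
        · rintro x (rfl | hx)
          · exact s1.2
          · exact (hFY hx).1
        · rintro x (rfl | hx)
          · exact s2.2
          · exact (hFY' hx).1
        · rintro v (rfl | hv) hvZ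
          · rfl
          · exfalso
            rcases hvZ with h | h
            · exact d1 v hv h
            · exact (hFY hv).2 h
        · rintro v (rfl | hv) hvZ
          · rfl
          · exfalso
            rcases hvZ with h | h
            · exact d2 v hv h
            · exact (hFY' hv).2 h
        · rw [Set.disjoint_left]
          rintro x (rfl | hx) (hx' | hx')
          · exact n12 hx'
          · exact (hFY' hx').2 t1
          · have hx'' : x = s2.1 := hx'
            exact (hFY hx).2 (hx'' ▸ t2)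
          · exact d3 x hx hx'
        · intro v hv hv1 hv2
          obtain ⟨a, ha, hav⟩ := sees f hf v hv
          exact ⟨a, Or.inr ha, hav⟩
        · intro v hv hv1 hv2
          obtain ⟨a, ha, hav⟩ := sees f' hf' v hv
          exact ⟨a, Or.inr ha, hav⟩
        · obtain ⟨a, ha, hav⟩ := sees f hf _ t2
          exact ⟨a, Or.inr ha, s2.1, Or.inl rfl, hav⟩
        · rintro u (hu | hu | hu) v (hv | hv | hv) huv
          · exact Or.inl hu
          · exact Or.inl hu
          · exact Or.inl hu
          · exact Or.inr (Or.inl hu)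
          · exact Or.inr (Or.inl hu)
          · exact Or.inr (Or.inl hu)
          · exact Or.inr (Or.inr (Or.inl hv))
          · exact Or.inr (Or.inr (Or.inr hv))
          · exact absurd (hu.trans hv.symm) huv
    -- unions of components
    have inner : ∀ k : ℕ, ∀ U : Set V, U ⊆ Y → U.ncard ≤ k →
        (∀ u ∈ U, ∀ v ∈ Y, G.Adj u v → v ∈ U) → ∀ R', R' ⊆ U ∪ T → Clq (G ⊔ cl T) R' →
        Good Atom (G ⊔ cl T) (U ∪ T) R' := by
      intro k
      induction k with
      | zero =>
        intro U _ hU _ R' hR' hRc'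
        have hU0 : U = ∅ := (Set.ncard_eq_zero (Set.toFinite U)).1 (Nat.le_zero.1 hU)
        subst hU0
        rw [Set.empty_union] at hR' ⊢
        exact Good.one hR' (atom_small hT3 ⟨s1.1, Or.inl rfl⟩ hTc)
      | succ k ihk =>
        intro U hUY hU hUcl R' hR' hRc'
        by_cases hU0 : U = ∅
        · subst hU0
          rw [Set.empty_union] at hR' ⊢
          exact Good.one hR' (atom_small hT3 ⟨s1.1, Or.inl rfl⟩ hTc)
        obtain ⟨e, he⟩ := Set.nonempty_iff_ne_empty.2 hU0
        have heY := hUY he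
        have hEU : comp G Y e ⊆ U := comp_le he hUcl
        have hEY : comp G Y e ⊆ Y := comp_sub heY
        refine Good.split (C := comp G Y e) (K := T) (fun v hv => Or.inl (hEU hv))
          (fun v hv => Or.inr hv) (fun v hv => (hEY hv).2) hT3 ?_ hR' hRc' ?_ ?_
        · intro u hu v hv huv
          by_cases hvT : v ∈ T
          · exact Or.inr hvT
          · left
            rcases huv with huv | huv
            · exact comp_step hu huv (hUY (hv.resolve_right hvT))
            · exact absurd huv.2.2 hvT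
        · rw [sup_cl hTc]
          intro R'' hR'' hRc''
          exact compGood e heY R'' hR'' hRc''
        · rw [sup_cl hTc]
          intro R'' hR'' hRc''
          have heq : (U ∪ T) \ comp G Y e = (U \ comp G Y e) ∪ T := by
            ext v
            constructor
            · rintro ⟨hv | hv, hv'⟩
              · exact Or.inl ⟨hv, hv'⟩
              · exact Or.inr hv
            · rintro (hv | hv)
              · exact ⟨Or.inl hv.1, hv.2⟩
              · exact ⟨Or.inr hv, fun h => (hEY h).2 hv⟩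
          rw [heq] at hR'' ⊢
          refine ihk _ (fun v hv => hUY hv.1) ?_ ?_ R'' hR'' hRc''
          · have : (U \ comp G Y e).ncard < U.ncard :=
              Set.ncard_lt_ncard ⟨Set.diff_subset, fun h => (h he).2 comp_self⟩ (Set.toFinite U)
            omega
          · intro u hu v hv huv
            refine ⟨hUcl u hu.1 v hv huv, fun hvE => hu.2 ?_⟩
            exact comp_step hvE huv.symm (hUY hu.1)
    have hun : Y ∪ T = X := by
      rw [hY]
      exact Set.diff_union_of_subset hTX
    have := inner Y.ncard Y le_rfl le_rfl (fun u _ v hv _ => hv) R (by rw [hun]; exact hRX)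
      (fun u hu v hv huv => Or.inl (hR u hu v hv huv))
    rw [hun] at this
    exact Good.mono le_sup_left this

/-- the pieces with their root clique -/
def PW (V : Type) (G : SimpleGraph V) (R : Set V) : Prop :=
  G.Connected ∧ (¬ IsMinor K33 (capG G R) ∨ (Nat.card V = 8 ∧ R.ncard ≤ 2))

/-- **[W-FIN]** every finite graph without `K_5` minor is a spanning subgraph of a clique sum -/
theorem k5free_class (hW : WStmt) (hF : FaceStmt) (V : Type) [Finite V] [Nonempty V]
    (G : SimpleGraph V) (hG : ¬ IsMinor K5 G) : ∃ H : SimpleGraph V, G ≤ H ∧ CliqueSum 3 PW H := by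
  have hG' : ¬ IsMinor K5 (G.induce (Set.univ : Set V)) := by
    intro h
    apply hG
    refine minor_trans h ⟨fun z => {z.1}, fun z => conn_single G z.1, fun a b hab => ?_,
      fun a b hab => ⟨a.1, rfl, b.1, rfl, hab⟩⟩
    rw [Set.disjoint_left]
    rintro x rfl hx
    exact hab (Subtype.ext hx)
  obtain ⟨H, hH, m, B, hB⟩ := good hW (Set.univ : Set V).ncard Set.univ le_rfl Set.univ_nonempty G
    hG' ∅ (Set.empty_subset _) (fun u hu => hu.elim)
  refine ⟨H, fun u v huv => hH u trivial v trivial huv, m, B,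
    ⟨fun v => hB.cover v trivial, hB.card, hB.clique, hB.sep⟩, ?_⟩
  intro t ht
  obtain ⟨hne, hpre, h5, h⟩ := hB.atom t ht
  have hcl : Clq (H.induce (B t)) {x : B t | (x : V) ∈ Adh B t} := by
    intro u hu v hv huv
    exact hB.clique t ht u.1 hu v.1 hv (fun h => huv (Subtype.ext h))
  have hcard : ({x : B t | (x : V) ∈ Adh B t} : Set (B t)).ncard ≤ 3 := by
    have h1 : ({x : B t | (x : V) ∈ Adh B t} : Set (B t)).ncard =
        (Subtype.val '' {x : B t | (x : V) ∈ Adh B t}).ncard :=
      (Set.ncard_image_of_injective _ Subtype.val_injective).symm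
    rw [h1]
    refine (Set.ncard_le_ncard ?_ (Set.toFinite _)).trans (hB.card t ht)
    rintro _ ⟨x, hx, rfl⟩
    exact hx
  refine ⟨?_, ?_⟩
  · have h0 := hpre ∅ (by simp) (fun u hu => hu.elim)
    haveI := hne
    refine ⟨fun a b => ?_⟩
    let f : (H.induce (B t)).induce (∅ : Set (B t))ᶜ →g H.induce (B t) :=
      ⟨fun z => z.1, fun h => h⟩
    exact (h0 ⟨a, fun h => h⟩ ⟨b, fun h => h⟩).map f
  · rcases h with h | ⟨h8, htri⟩
    · exact Or.inl (hF _ _ _ hcard hcl (hpre _ hcard hcl) h5 h)
    · right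
      refine ⟨h8, ?_⟩
      by_contra hgt
      have h3 : ({x : B t | (x : V) ∈ Adh B t} : Set (B t)).ncard = 3 := by omega
      obtain ⟨x, y, z, hxy, hxz, hyz, he⟩ := Set.ncard_eq_three.1 h3
      have hx : x ∈ ({x : B t | (x : V) ∈ Adh B t} : Set (B t)) := by rw [he]; simp
      have hy : y ∈ ({x : B t | (x : V) ∈ Adh B t} : Set (B t)) := by rw [he]; simp
      have hz : z ∈ ({x : B t | (x : V) ∈ Adh B t} : Set (B t)) := by rw [he]; simp
      exact htri x y z (hcl x hx y hy hxy) (hcl y hy z hz hyz) (hcl x hx z hz hxz)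

end Vale.Agent.P235.K5.H437
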